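import Vale.Agent.P277.HD.Surf
import Vale.Agent.P277.H619.EB.Rank

/-!
# P277: the number of flips is bounded by the number of flipped surfaces
-/

set_option maxSynthPendingDepth 3

open scoped Manifold ContDiff Topology
open Vale.Agent.P272.K Vale.Agent.P285.H281.FD Vale.Agent.P267.H175 Set Filter

noncomputable section

namespace Vale.Agent.P277.HD

open H619 H19 H615 H371.C H619.EB

theorem IsMod.pmod {Y : Type} [TopologicalSpace Y] [ChartedSpace (Cm 4) Y] {X : CSp} {W O : Set Y}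
    {v : Y → X.pt} {τ : Set X.pt} (h : IsMod X W O v τ) : PMod X W O v τ where
  isOpen := h.isOpen
  cont := h.cont
  hol := h.hol
  closed := h.closed
  dim := h.dim.mono fun _ hx => hx.1
  maps := h.maps
  proper := h.proper
  sub := h.sub
  emb := h.emb
  codim := h.codim
  null := h.null

/-- the rank of the pairing on `W` is at most the rank of the pairing on `Y` -/
theorem rank_thin {Y : Type} [TopologicalSpace Y] [T2Space Y] [SecondCountableTopology Y]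
    [ChartedSpace (Cm 4) Y] [IsManifold 𝓘(ℂ, Cm 4) ω Y] {X : CSp} {W O : Set Y} {v : Y → X.pt}
    {τ : Set X.pt} (hM : PMod X W O v τ) (hne : Nonempty (RegT X)) (hτ : DimLe X 1 τ) {ρ : ℕ}
    (hρ : RankOn Y univ ρ) : RankX X W v τ ρ := by
  refine stepX_thin hM hne hM.closed hτ Subset.rfl fun n a b ha hb => ?_
  have key : ∀ a : Fm 4 Y, (∃ c, XFS X W v τ τ a c) → CCF univ a := by
    rintro a ⟨c, hc, N, h1, h2, h3, h4, h5⟩
    exact CCF.mono' (hc.ccf hM h1 h5 h3) (subset_univ _)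
  exact hρ n a b (fun i => key _ (ha i)) fun i => key _ (hb i)

theorem sg_dimS {X : CSp} {S : Set X.pt} (hSan : IsAn X univ S) (hS2 : DimLe X 2 S)
    (hs : DimLe X 1 {x | x ∈ S ∧ ¬ IsReg 4 X x}) : DimLe X 1 (Sg X S) := by
  refine (hs.union (H762.stL1 X S hSan hS2)).mono ?_
  rintro x ⟨hxS, hx⟩
  by_cases h2 : IsReg 4 X x
  · exact Or.inr ⟨hxS, fun h3 => hx ⟨h2, h3⟩⟩
  · exact Or.inl ⟨hxS, h2⟩

/-- **The number of flips is bounded by the number of flipped surfaces.** -/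
theorem surf_bound (Y : Type) [TopologicalSpace Y] [T2Space Y] [CompactSpace Y]
    [ChartedSpace (Cm 4) Y] [IsManifold 𝓘(ℂ, Cm 4) ω Y] :
    ∃ b : ℕ, ∀ (N : ℕ) (X Z : ℕ → CSp) (W O : Set Y) (v : Y → (X 0).pt) (τ : Set (X 0).pt)
      (f : ∀ j, (X j).pt → (Z j).pt) (f' : ∀ j, (X (j + 1)).pt → (Z j).pt)
      (A : ∀ j, Set (Z j).pt) (L : ∀ j, Bd (X j).pt) (L' : ∀ j, Bd (X (j + 1)).pt) (k : ℕ → ℕ),
      IsMod (X 0) W O v τ →
      (∀ j < N, IsFlip (X j) (Z j) (X (j + 1)) (f j) (f' j) (A j) (L j) (L' j)) →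
      (∀ j < N, NumSurf (X (j + 1)) (Exc (f' j)) (k j)) →
      N ≤ b + 3 * ∑ j ∈ Finset.range N, k j := by
  have : SecondCountableTopology Y := ChartedSpace.secondCountable_of_sigmaCompact (Cm 4) Y
  obtain ⟨ρ₀, hρ₀⟩ := stRkCpt stPair Y
  refine ⟨ρ₀, fun N X Z W O v τ f f' A₀ L L' k hW hflip₀ hk₀ => ?_⟩
  rcases Nat.eq_zero_or_pos N with rfl | hN
  · exact Nat.zero_le _
  -- the exceptional sets
  have hflip : ∀ j < N, IsFlip (X j) (Z j) (X (j + 1)) (f j) (f' j) (Amin (f j)) (L j) (L' j) :=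
    fun j hj => (H615.stD0 _ _ _ _ _ _ _ _ (hflip₀ j hj)).1
  have hexc : ∀ j < N, f' j ⁻¹' Amin (f j) = Exc (f' j) := by
    intro j hj
    have h1 := (H615.stD0 _ _ _ _ _ _ _ _ (hflip₀ j hj)).2.1
    rw [h1]
    ext x
    constructor
    · rintro ⟨x₁, x₂, h2, h3, h4⟩
      by_cases h5 : x₁ = x
      · exact ⟨x₂, h3, fun h6 => h4 (h5.trans h6.symm)⟩
      · exact ⟨x₁, h2, h5⟩
    · rintro ⟨x', h2, h3⟩
      exact ⟨x', x, h2, rfl, h3⟩
  have hreg : ∀ j < N, DimLe (X (j + 1)) 1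
      {x | x ∈ f' j ⁻¹' Amin (f j) ∧ ¬ IsReg 4 (X (j + 1)) x} := by
    intro j hj
    rw [hexc j hj]
    exact (hk₀ j hj).1
  have hcomp : ∀ j < N, ∃ c : Fin (k j) → (X (j + 1)).pt,
      ∀ x ∈ f' j ⁻¹' Amin (f j) \ Sg (X (j + 1)) (f' j ⁻¹' Amin (f j)),
        ∃ i, x ∈ connectedComponentIn
          (f' j ⁻¹' Amin (f j) \ Sg (X (j + 1)) (f' j ⁻¹' Amin (f j))) (c i) := by
    intro j hj
    obtain ⟨-, c, hc⟩ := hk₀ j hj
    have h1 : f' j ⁻¹' Amin (f j) \ Sg (X (j + 1)) (f' j ⁻¹' Amin (f j)) =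
        {y | y ∈ Exc (f' j) ∧ IsReg 4 (X (j + 1)) y ∧ IsSurf (X (j + 1)) (Exc (f' j)) y} := by
      rw [hexc j hj]
      ext x
      constructor
      · rintro ⟨h2, h3⟩
        have h4 : IsReg 4 (X (j + 1)) x ∧ IsSurfX (X (j + 1)) (Exc (f' j)) x := by
          by_contra h5
          exact h3 ⟨h2, h5⟩
        exact ⟨h2, h4.1, h4.2⟩
      · rintro ⟨h2, h3, h4⟩
        exact ⟨h2, fun h5 => h5.2 ⟨h3, h4⟩⟩
    refine ⟨c, fun x hx => ?_⟩
    rw [h1] at hx ⊢
    exact hc x hx.1 hx.2.1 hx.2.2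
  have hkpos : ∀ j < N, ¬ DimLe (X (j + 1)) 1 (f' j ⁻¹' Amin (f j)) → 1 ≤ k j := by
    intro j hj hd
    by_contra h0
    obtain ⟨c, hc⟩ := hcomp j hj
    have F := hflip j hj
    have hSan : IsAn (X (j + 1)) univ (f' j ⁻¹' Amin (f j)) :=
      F.small'.an.preimage (V := univ) fun x => F.small'.holMap x
    have h1 := sg_dimS hSan F.small'.dim (hreg j hj)
    refine hd (h1.mono fun x hx => ?_)
    by_contra h2
    obtain ⟨i, -⟩ := hc x ⟨hx, h2⟩
    exact h0 ((Nat.zero_le _).trans_lt i.2)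
  have key : ∀ j ≤ N, ∃ (W O : Set Y) (v : Y → (X j).pt) (E : Set (X j).pt) (ρ : ℕ),
      PMod (X j) W O v E ∧ RankX (X j) W v E ρ ∧
        ρ + j ≤ ρ₀ + 3 * ∑ i ∈ Finset.range j, k i := by
    intro j
    induction j with
    | zero =>
      intro _
      exact ⟨W, O, v, τ, ρ₀, hW.pmod, rank_thin hW.pmod (ne_reg (hflip 0 hN)).1 hW.dim hρ₀, by simp⟩
    | succ j ih =>
      intro hj
      obtain ⟨W, O, v, E, ρ, hM, hρ, hle⟩ := ih (by omega)
      have F := hflip j (by omega)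
      have hM' := pmod_step F.small F.small' hM (hreg j (by omega))
      rw [Finset.sum_range_succ]
      by_cases hd : DimLe (X (j + 1)) 1 (f' j ⁻¹' Amin (f j))
      · obtain ⟨ρ', h1, h2⟩ := thin_step F hM (ne_reg F).1 (ne_reg F).2 hd hρ
        exact ⟨_, _, _, _, ρ', hM', h2, by omega⟩
      · obtain ⟨c, hc⟩ := hcomp j (by omega)
        have h1 := hkpos j (by omega) hd
        exact ⟨_, _, _, _, _, hM', surf_step' F.small F.small' hM (ne_reg F).2
          (hreg j (by omega)) hρ c hc, by omega⟩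
  obtain ⟨W, O, v, E, ρ, -, -, hle⟩ := key N le_rfl
  omega

end Vale.Agent.P277.HD
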