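import Vale.Agent.P277.HD.Klt

/-!
# P277, (KLTV): infinite sequences of flips of klt pairs with a weak Zariski decomposition
-/

open scoped Manifold ContDiff Topology
open Vale.Agent.P272.K Vale.Agent.P285.H281.FD Set Metric Filter

noncomputable section

namespace Vale.Agent.P277.HD

/-- (KLTV) Let `(X j)` be an infinite sequence of flips of `D = K + B + M`, starting with a klt NQC
generalized pair `(X 0, B + M)` (`a l > -1`, `b i < 1`) with a log resolution such that the `G l` with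
`a l < 0` are disjoint from each other and from the `H i`. Call `G l` hit if the set of the points of
`X 0` hit by the flips is Zariski dense in the centre `p (v (G l)) ⊆ X 0`.
First part: all but finitely many `X (j + 1)` are generically regular along the flipped surfaces.
Second part: let `E = Y`, or let the pull back of `D` to `Y` be `∼_ℝ P + N`, where `P` is nef (a
nonnegative combination of nef line bundles) and `N ≥ 0`, and let `E` be the support of `N`. Then there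
are a `j`, a flipped surface `S ⊆ X (j + 1)` and a `G l ⊆ E` with `a l < 0` which is hit, such that
`∑ b i < - a l` (sum over the `i` with `S` in the strict transform of `H i`), or `X (j + 1)` is singular
along `S` and `∑ b i < - 2 * a l`. If infinitely many flipped loci have dimension two, or infinitely
many `X j` have resolutions, then there are infinitely many such `j`.
Third part: if `D + ∑ ε i • D (k + i) ∼_ℝ 0`, `ε i ≥ 0`, then the flipped surfaces are contained in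
the union of the strict transforms of the `H i` with `ε i > 0`. -/
def StKltV : Prop :=
  ∀ (Y : Type) [TopologicalSpace Y] [T2Space Y] [CompactSpace Y] [ChartedSpace (Cm 4) Y]
    [IsManifold 𝓘(ℂ, Cm 4) ω Y] (χ : Chart 4 Y → Cm 4 → Matrix (Fin 4) (Fin 4) ℂ)
    (_ : IsKahler χ) (k s : ℕ) (M : Fin (k + s) → Bd Y) (_ : ∀ e, IsLB 4 (M e))
    (_ : ∀ e : Fin k, Nef χ (M (Fin.castAdd s e))) (m : Fin (k + s) → ℕ)
    (_ : ∀ e : Fin k, 1 ≤ m (Fin.castAdd s e)) (_ : ∀ i : Fin s, m (Fin.natAdd k i) = 0)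
    (ρ : Fin (k + s) → ℝ) (_ : ∀ e, 0 < ρ e) (_ : ∑ e, ρ e * m e = 1) (H : Fin s → Type)
    [∀ i, TopologicalSpace (H i)] [∀ i, T2Space (H i)] [∀ i, CompactSpace (H i)]
    [∀ i, ConnectedSpace (H i)] [∀ i, ChartedSpace (Cm 3) (H i)]
    [∀ i, IsManifold 𝓘(ℂ, Cm 3) ω (H i)] (ι : ∀ i, H i → Y)
    (sg : ∀ i : Fin s, (M (Fin.natAdd k i)).ι → Y → ℂ)
    (_ : ∀ i, IsBd (ι i) (M (Fin.natAdd k i)) (sg i))
    (_ : Pairwise fun i j => Disjoint (range (ι i)) (range (ι j)))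
    (W : CSp) (X Z : ℕ → CSp) (r : ℕ) (v : Y → W.pt) (p : W.pt → (X 0).pt) (P : Bd W.pt)
    (G : Fin r → Set Y) (_ : IsRes v p P G) (_ : ∀ i, ¬ range (ι i) ⊆ ⋃ l, G l)
    (f : ∀ j, (X j).pt → (Z j).pt) (f' : ∀ j, (X (j + 1)).pt → (Z j).pt)
    (A : ∀ j, Set (Z j).pt) (L : ∀ j, Fin (k + s) → Bd (X j).pt) (c : ℕ → Fin (k + s) → ℕ)
    (_ : ∀ j e, 1 ≤ c j e) (n : Fin (k + s) → Fin r → ℤ)
    (_ : ∃ t, IsCmpV (fun y => p (v y)) (L 0)
      (fun e => (((Bd.can 4 Y).pow (m e)).mul (M e)).pow (c 0 e)) G n t)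
    (_ : ∀ j, IsFlipR (X j) (Z j) (X (j + 1)) (f j) (f' j) (A j) (L j) (L (j + 1)) (c j)
      (c (j + 1)) ρ)
    (a : Fin r → ℝ) (_ : ∀ l, a l = ∑ e, ρ e * n e l / c 0 e)
    (_ : ∀ i : Fin s, ρ (Fin.natAdd k i) < 1) (_ : ∀ l, -1 < a l)
    (_ : ∀ l l', l ≠ l' → a l < 0 → a l' < 0 → Disjoint (G l) (G l'))
    (_ : ∀ l i, a l < 0 → Disjoint (G l) (range (ι i))),
    (∃ J, ∀ j ≥ J, DimLe (X (j + 1)) 1 {x | f' j x ∈ Amin (f j) ∧ ¬ IsReg 4 (X (j + 1)) x}) ∧
    (∀ E, E = univ ∨ IsWZ χ (fun y => p (v y)) (L 0) (c 0) ρ E →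
      ∀ N, (N = 0 ∨
        ∀ n, ∃ j ≥ n, HasRes (X j) ∨ ¬ DimLe (X (j + 1)) 1 {x | f' j x ∈ Amin (f j)}) →
      ∃ j ≥ N, ¬ DimLe (X (j + 1)) 1 {x | f' j x ∈ Amin (f j) ∧
        ∃ l, a l < 0 ∧ G l ⊆ E ∧ ZD (fun y => p (v y)) (hit f f') (G l) ∧
          ∃ u : ℝ, (u = 1 ∨ u = 2 ∧ ¬ IsReg 4 (X (j + 1)) x) ∧
            ∑ i : Fin s, (Str (Cor (⋃ l, G l) (fun y => p (v y)) f f' (j + 1))
              (range (ι i))).indicator (fun _ => ρ (Fin.natAdd k i)) x < - (u * a l)}) ∧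
    ∀ ε : Fin s → ℝ, (∀ i, 0 ≤ ε i) →
      IsRTriv (X 0) (L 0) (c 0) (fun e => ρ e + Fin.append (fun _ : Fin k => 0) ε e) →
      ∀ j x, f' j x ∈ Amin (f j) → ∃ i, 0 < ε i ∧
        x ∈ Str (Cor (⋃ l, G l) (fun y => p (v y)) f f' (j + 1)) (range (ι i))

end Vale.Agent.P277.HD
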