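import Vale.Agent.P277.Defs

/-!
# P277: the definitions used by the statements of the hand-ins

These are the definitions of `Stmts*.lean` (copied, without the statements of the intermediate steps).
-/

open scoped Manifold ContDiff Topology
open Vale.Agent.P272.K Vale.Agent.P285.H281.FD Set Metric Filter

noncomputable section

namespace Vale.Agent.P277.HD

section
variable {Y : Type} [TopologicalSpace Y] [ChartedSpace (Cm 4) Y]

/-- `ξ` is a holomorphic local coordinate system of `Y`, defined on the ball with centre `w₀` and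
radius `r`, in which `G` is the hyperplane `{w 0 = 0}`. -/
structure IsPar (G : Set Y) (ξ : Cm 4 → Y) (w₀ : Cm 4) (r : ℝ) : Prop where
  pos : 0 < r
  zero : w₀ 0 = 0
  inj : InjOn ξ (ball w₀ r)
  openMap : ∀ W ⊆ ball w₀ r, IsOpen W → IsOpen (ξ '' W)
  cont : ∀ w ∈ ball w₀ r, ContinuousAt ξ w
  an : ∀ w ∈ ball w₀ r, ∀ e : Chart 4 Y, At e (ξ w) →
    AnalyticAt ℂ (fun w => e (ξ w)) w ∧ (fderiv ℂ (fun w => e (ξ w)) w).det ≠ 0
  mem : ∀ w ∈ ball w₀ r, ξ w ∈ G ↔ w 0 = 0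

/-- `G` is a smooth hypersurface. -/
def IsHyp (G : Set Y) : Prop := ∀ y ∈ G, ∃ (ξ : Cm 4 → Y) (w₀ : Cm 4) (r : ℝ),
  IsPar G ξ w₀ r ∧ ξ w₀ = y

/-- `p ∘ v : Y → X` is a log resolution: `v` identifies the manifold `Y` with the complex space `W`,
`p : W → X` is bimeromorphic, an isomorphism over the complement of an analytic set of dimension
`≤ 2`, whose preimage is the union of the smooth connected hypersurfaces `G 0, …, G (r - 1)`, and `p`
is projective: `P` is `p`-ample, and `P⁻¹` is, locally over `X`, defined by an effective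
`p`-exceptional divisor. -/
structure IsRes {W X : CSp} {r : ℕ} (v : Y → W.pt) (p : W.pt → X.pt) (P : Bd W.pt)
    (G : Fin r → Set Y) : Prop where
  emb : IsOpenEmb W univ v
  surj : Function.Surjective v
  cont : Continuous p
  holo : ∀ x g, X.Hol g (p x) → W.Hol (g ∘ p) x
  psurj : Function.Surjective p
  closed : ∀ l, IsClosed (G l)
  conn : ∀ l, IsPreconnected (G l)
  hyp : ∀ l, IsHyp (G l)
  emb' : IsOpenEmb X (⋃ l, G l)ᶜ (fun y => p (v y))
  inj : ∀ y x, y ∉ ⋃ l, G l → p x = p (v y) → x = v y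
  an : IsAn X univ ((fun y => p (v y)) '' ⋃ l, G l)
  dim : DimLe X 2 ((fun y => p (v y)) '' ⋃ l, G l)
  lb : IsLBx W P
  ample : RelAmple W X p P
  eff : ∀ z, ∃ (V : Set X.pt) (τ : P.ι → W.pt → ℂ), IsOpen V ∧ z ∈ V ∧
    IsSecx W (p ⁻¹' V) (Bd.inv P) τ ∧
    ∀ y i, p (v y) ∈ V → y ∉ ⋃ l, G l → v y ∈ P.U i → τ i (v y) ≠ 0

/-- `ζ` is a local equation of the smooth hypersurface `G` at `y`. -/
def IsLEq (G : Set Y) (y : Y) (ζ : Y → ℂ) : Prop :=
  (∀ᶠ y' in 𝓝 y, (ζ y' = 0 ↔ y' ∈ G)) ∧ ∀ e : Chart 4 Y, At e y →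
    AnalyticAt ℂ (fun z => ζ (e.symm z)) (e y) ∧
      (ζ y = 0 → fderiv ℂ (fun z => ζ (e.symm z)) (e y) ≠ 0)

/-- `t e` compares the frames of the line bundles `v^* (L e)` and `N e` on `Y` (frame of `L e` =
`t e` times the frame of `N e`), and the divisor of the meromorphic function `t e` is
`∑ l, n e l • G l`. -/
structure IsCmpV {X : CSp} {k r : ℕ} (v : Y → X.pt) (L : Fin k → Bd X.pt) (N : Fin k → Bd Y)
    (G : Fin r → Set Y) (n : Fin k → Fin r → ℤ) (t : ∀ e, (L e).ι → (N e).ι → Y → ℂ) : Prop where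
  div : ∀ y, ∃ ζ : Fin r → Y → ℂ, (∀ l, IsLEq (G l) y (ζ l)) ∧
    ∀ e i j, v y ∈ (L e).U i → y ∈ (N e).U j → ∃ u : Y → ℂ, u y ≠ 0 ∧
      (∀ ch : Chart 4 Y, At ch y → AnalyticAt ℂ (fun z => u (ch.symm z)) (ch y)) ∧
      ∀ᶠ y' in 𝓝 y, y' ∉ ⋃ l, G l → t e i j y' = u y' * ∏ l, ζ l y' ^ n e l
  change : ∀ y e i i₁ j j₁, y ∉ ⋃ l, G l → v y ∈ (L e).U i → v y ∈ (L e).U i₁ →
    y ∈ (N e).U j → y ∈ (N e).U j₁ →
      t e i₁ j₁ y = (L e).g i i₁ (v y) * t e i j y * (N e).g j₁ j y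

end

/-- The line bundle `⊗ e, L e ^ n e`. -/
def Bd.lin {X : Type} {k : ℕ} (L : Fin k → Bd X) (n : Fin k → ℤ) : Bd X where
  ι := ∀ e, (L e).ι
  U i := {x | ∀ e, x ∈ (L e).U (i e)}
  g i j x := ∏ e, (L e).g (i e) (j e) x ^ n e

/-- `X → Z ← X'` (by `f` and `f'`, isomorphisms over `Z \ A`) is the flip of the `ℝ`-Cartier divisor
`D = ∑ e, ρ e • D e`. Here `L e` and `L' e` are the line bundles defined by `c e • D e` and
`c' e • D' e`, where `D' e` is the strict transform of the `ℚ`-Cartier divisor `D e`. The divisor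
`-D` is `f`-ample and `D' = ∑ e, ρ e • D' e` is `f'`-ample: this means that all `ℚ`-divisors
`∑ e, (n e * c e / d) • D e` with coefficients near those of `D` have this property (the line bundle
`⊗ e, L e ^ n e` is defined by the divisor `∑ e, (n e * c e) • D e`). -/
structure IsFlipR {k : ℕ} (X Z X' : CSp) (f : X.pt → Z.pt) (f' : X'.pt → Z.pt) (A : Set Z.pt)
    (L : Fin k → Bd X.pt) (L' : Fin k → Bd X'.pt) (c c' : Fin k → ℕ) (ρ : Fin k → ℝ) : Prop where
  normal : IsNormal 4 X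
  normalZ : IsNormal 4 Z
  normal' : IsNormal 4 X'
  small : IsSmall X Z f A
  small' : IsSmall X' Z f' A
  ninj : ¬ Function.Injective f
  ninj' : ¬ Function.Injective f'
  lb : ∀ e, IsLBx X (L e)
  lb' : ∀ e, IsLBx X' (L' e)
  iso : ∀ e, ∃ p q : ℕ, 1 ≤ p ∧ 1 ≤ q ∧ c e * p = c' e * q ∧
    ∃ t, IsIso f f' A ((L e).pow p) ((L' e).pow q) t
  ample : ∃ ε > 0, ∀ (n : Fin k → ℤ) (d : ℕ), 1 ≤ d → (∀ e, |(n e * c e : ℝ) / d - ρ e| < ε) →
    RelAmple X Z f (Bd.inv (Bd.lin L n))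
  ample' : ∃ ε > 0, ∀ (n : Fin k → ℤ) (d : ℕ), 1 ≤ d → (∀ e, |(n e * c' e : ℝ) / d - ρ e| < ε) →
    RelAmple X' Z f' (Bd.lin L' n)

/-- `ι : H → Y` is a closed holomorphic embedding. -/
structure IsSub {H Y : Type} [TopologicalSpace H] [TopologicalSpace Y] [ChartedSpace (Cm 3) H]
    [ChartedSpace (Cm 4) Y] (ι : H → Y) : Prop where
  cont : Continuous ι
  inj : Function.Injective ι
  holo : ∀ (y : H) (e : Chart 3 H) (e' : Chart 4 Y), At e y → At e' (ι y) →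
    AnalyticAt ℂ (fun z => e' (ι (e.symm z))) (e y) ∧
      Function.Injective (fderiv ℂ (fun z => e' (ι (e.symm z))) (e y))

/-- The section `s` of the line bundle `E` on `Y` vanishes, with multiplicity one, exactly on the
compact connected threefold `ι : H → Y`. -/
structure IsBd {H Y : Type} [TopologicalSpace H] [TopologicalSpace Y] [ChartedSpace (Cm 3) H]
    [ChartedSpace (Cm 4) Y] (ι : H → Y) (E : Bd Y) (s : E.ι → Y → ℂ) : Prop where
  sub : IsSub ι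
  sec : IsSec 4 E s
  zero : ∀ μ, ∀ y ∈ E.U μ, s μ y = 0 ↔ y ∈ range ι
  mult : ∀ μ, ∀ y ∈ E.U μ, s μ y = 0 → ∀ e : Chart 4 Y, At e y →
    fderiv ℂ (fun z => s μ (e.symm z)) (e y) ≠ 0

/-- the points of `Z` with at least two preimages -/
def Amin {X Z : CSp} (f : X.pt → Z.pt) : Set Z.pt := {z | ∃ x x', f x = z ∧ f x' = z ∧ x ≠ x'}

/-- The point `y` of `Y \ D` corresponds to the point `x` of `X j`, under the maps
`Y → X 0 ⇢ X 1 ⇢ ⋯ ⇢ X j`: the step `x ∈ X j`, `x' ∈ X (j + 1)` is `f x = f' x'`, and `f` is injective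
at `x`. -/
def Cor {Y : Type} {X Z : ℕ → CSp} (D : Set Y) (v : Y → (X 0).pt) (f : ∀ j, (X j).pt → (Z j).pt)
    (f' : ∀ j, (X (j + 1)).pt → (Z j).pt) : ∀ j, Y → (X j).pt → Prop
  | 0, y, x => y ∉ D ∧ v y = x
  | j + 1, y, x' => ∃ x, Cor D v f f' j y x ∧ f j x = f' j x' ∧ f j x ∉ Amin (f j)

/-- The points of `X 0` which are hit by the flips: the points `x` whose image in some `X j` (under a
map `X 0 ⇢ X j` which is a local isomorphism at `x`) is contained in the flipping locus. -/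
def hit {X Z : ℕ → CSp} (f : ∀ j, (X j).pt → (Z j).pt) (f' : ∀ j, (X (j + 1)).pt → (Z j).pt) :
    Set (X 0).pt :=
  {x | ∃ j x', Cor ∅ (fun x : (X 0).pt => x) f f' j x x' ∧ f j x' ∈ Amin (f j)}

/-- `Δ ∩ v(B)` is Zariski dense in `v(B)`. -/
def ZD {Y : Type} {X : CSp} (v : Y → X.pt) (Δ : Set X.pt) (B : Set Y) : Prop :=
  ∀ C, IsAn X univ C → (∀ y ∈ B, v y ∈ Δ → v y ∈ C) → ∀ y ∈ B, v y ∈ C

/-- The line bundle `L` on `X` is trivial: it has a section without zeros. -/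
def IsTriv (X : CSp) (L : Bd X.pt) : Prop :=
  ∃ s : L.ι → X.pt → ℂ, IsSecx X univ L s ∧ ∀ i, ∀ x ∈ L.U i, s i x ≠ 0

end Vale.Agent.P277.HD
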