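import Vale.Agent.P277.HD.Base
import Vale.Agent.P277.Stmts17
import Vale.Agent.P277.Stmts29

/-!
# P277: the definitions of `HD/Base.lean` agree with those of `Stmts*.lean`
-/

open scoped Manifold ContDiff Topology
open Vale.Agent.P272.K Vale.Agent.P285.H281.FD Set Metric Filter

noncomputable section

namespace Vale.Agent.P277.HD

section
variable {Y : Type} [TopologicalSpace Y] [ChartedSpace (Cm 4) Y]

theorem IsPar.old {G : Set Y} {ξ : Cm 4 → Y} {w₀ : Cm 4} {r : ℝ} (h : IsPar G ξ w₀ r) :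
    T2.IsPar G ξ w₀ r := ⟨h.pos, h.zero, h.inj, h.openMap, h.cont, h.an, h.mem⟩

theorem IsHyp.old {G : Set Y} (h : IsHyp G) : T2.IsHyp G := fun y hy => by
  obtain ⟨ξ, w₀, r, h1, h2⟩ := h y hy
  exact ⟨ξ, w₀, r, h1.old, h2⟩

theorem IsRes.old {W X : CSp} {r : ℕ} {v : Y → W.pt} {p : W.pt → X.pt} {P : Bd W.pt}
    {G : Fin r → Set Y} (h : IsRes v p P G) : T2.IsRes v p P G :=
  ⟨h.emb, h.surj, h.cont, h.holo, h.psurj, h.closed, h.conn, fun l => (h.hyp l).old, h.emb', h.inj,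
    h.an, h.dim, h.lb, h.ample, h.eff⟩

theorem IsCmpV.old {X : CSp} {k r : ℕ} {v : Y → X.pt} {L : Fin k → Bd X.pt} {N : Fin k → Bd Y}
    {G : Fin r → Set Y} {n : Fin k → Fin r → ℤ} {t : ∀ e, (L e).ι → (N e).ι → Y → ℂ}
    (h : IsCmpV v L N G n t) : T2.IsCmpV v L N G n t := ⟨h.div, h.change⟩

end

theorem IsFlipR.old {k : ℕ} {X Z X' : CSp} {f : X.pt → Z.pt} {f' : X'.pt → Z.pt} {A : Set Z.pt}
    {L : Fin k → Bd X.pt} {L' : Fin k → Bd X'.pt} {c c' : Fin k → ℕ} {ρ : Fin k → ℝ}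
    (h : IsFlipR X Z X' f f' A L L' c c' ρ) : P277.IsFlipR X Z X' f f' A L L' c c' ρ :=
  ⟨h.normal, h.normalZ, h.normal', h.small, h.small', h.ninj, h.ninj', h.lb, h.lb', h.iso, h.ample,
    h.ample'⟩

theorem IsBd.old {H Y : Type} [TopologicalSpace H] [TopologicalSpace Y] [ChartedSpace (Cm 3) H]
    [ChartedSpace (Cm 4) Y] {ι : H → Y} {E : Bd Y} {s : E.ι → Y → ℂ} (h : IsBd ι E s) :
    T3.IsBd ι E s := ⟨⟨h.sub.cont, h.sub.inj, h.sub.holo⟩, h.sec, h.zero, h.mult⟩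

theorem cor_old {Y : Type} {X Z : ℕ → CSp} (D : Set Y) (v : Y → (X 0).pt)
    (f : ∀ j, (X j).pt → (Z j).pt) (f' : ∀ j, (X (j + 1)).pt → (Z j).pt) (j : ℕ) :
    Cor D v f f' j = T3.Cor D v f f' j := by
  induction j with
  | zero => rfl
  | succ j ih =>
    funext y x'
    show (∃ x, Cor D v f f' j y x ∧ f j x = f' j x' ∧ f j x ∉ Amin (f j)) =
      ∃ x, T3.Cor D v f f' j y x ∧ f j x = f' j x' ∧ f j x ∉ P277.Amin (f j)
    rw [ih]
    rfl

theorem hit_old {X Z : ℕ → CSp} (f : ∀ j, (X j).pt → (Z j).pt)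
    (f' : ∀ j, (X (j + 1)).pt → (Z j).pt) : hit f f' = T3.hit f f' := by
  ext x
  constructor
  · rintro ⟨j, x', h1, h2⟩
    rw [cor_old] at h1
    exact ⟨j, x', h1, h2⟩
  · rintro ⟨j, x', h1, h2⟩
    refine ⟨j, x', ?_, h2⟩
    rw [cor_old]
    exact h1

end Vale.Agent.P277.HD
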