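import Vale.Agent.P277.HD.Base

/-!
# P277: further definitions used by the statement of `NegativePlaces`
-/

open scoped Manifold ContDiff Topology
open Vale.Agent.P272.K Vale.Agent.P285.H281.FD Set

noncomputable section

namespace Vale.Agent.P277.HD

/-- The compact complex space `X` has a resolution. -/
def HasRes (X : CSp) : Prop :=
  ∃ (Y : Type) (_ : TopologicalSpace Y) (_ : T2Space Y) (_ : CompactSpace Y)
    (_ : ChartedSpace (Cm 4) Y) (_ : IsManifold 𝓘(ℂ, Cm 4) ω Y) (v : Y → X.pt) (O : Set Y),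
    Continuous v ∧ (∀ y, ∀ e : Chart 4 Y, At e y → ∀ g : X.pt → ℂ, X.Hol g (v y) →
      AnalyticAt ℂ (fun z => g (v (e.symm z))) (e y)) ∧ IsOpenEmb X O v ∧ DimLe X 2 (v '' O)ᶜ

/-- `∑ e, σ e • D e ∼_ℝ 0`, where `L e` is the line bundle defined by `c e • D e`: the divisor is a
real combination of integral combinations whose line bundles are trivial. -/
def IsRTriv {K : ℕ} (X : CSp) (L : Fin K → Bd X.pt) (c : Fin K → ℕ) (σ : Fin K → ℝ) : Prop :=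
  ∃ (b : ℕ) (n : Fin b → Fin K → ℤ) (x : Fin b → ℝ), (∀ a, IsTriv X (Bd.lin L (n a))) ∧
    ∀ e, σ e = ∑ a, x a * (n a e * c e)

/-- the strict transform in `X` of the set `F ⊆ Y` -/
def Str {Y : Type} {X : CSp} (Cr : Y → X.pt → Prop) (F : Set Y) : Set X.pt :=
  closure {x | ∃ y ∈ F, Cr y x}

/-- the pull back of the line bundle `L` by `v` -/
def pull {Y X : Type} (v : Y → X) (L : Bd X) : Bd Y where
  ι := L.ι
  U i := v ⁻¹' L.U i
  g i j y := L.g i j (v y)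

/-- `v^* D ∼_ℝ P + N` on `Y`, where `D = ∑ e, ρ e • D e`, and `L e` is the line bundle defined by
`c e • D e`, `P = ∑ b ∈ I, x b • N b` is a nonnegative combination of nef line bundles, and
`N = ∑ b ∉ I, x b • N b` is effective with support `E`: the line bundle `N b` has the section `τ b`, for
`b ∉ I`. -/
def IsWZ {Y : Type} [TopologicalSpace Y] [ChartedSpace (Cm 4) Y] {X : CSp} {K : ℕ}
    (χ : Chart 4 Y → Cm 4 → Matrix (Fin 4) (Fin 4) ℂ) (v : Y → X.pt) (L : Fin K → Bd X.pt)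
    (c : Fin K → ℕ) (ρ : Fin K → ℝ) (E : Set Y) : Prop :=
  ∃ (q : ℕ) (N : Fin q → Bd Y) (I : Set (Fin q)) (τ : ∀ b, (N b).ι → Y → ℂ) (x : Fin q → ℝ),
    (∀ b, IsLB 4 (N b)) ∧ (∀ b, 0 < x b) ∧ (∀ b ∈ I, Nef χ (N b)) ∧
    (∀ b ∉ I, IsSec 4 (N b) (τ b)) ∧
    (∀ y, y ∈ E ↔ ∃ b ∉ I, ∃ i, y ∈ (N b).U i ∧ τ b i y = 0) ∧
    ∃ (a : ℕ) (n : Fin a → Fin K → ℤ) (ν : Fin a → Fin q → ℤ) (u : Fin a → ℝ),
      (∀ l, ∃ θ, IsSec 4 ((Bd.lin (fun e => pull v (L e)) (n l)).mul (Bd.lin N (ν l))) θ ∧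
        ∀ y, NZ ((Bd.lin (fun e => pull v (L e)) (n l)).mul (Bd.lin N (ν l))) θ y) ∧
      (∀ e, ρ e = ∑ l, u l * (n l e * c e)) ∧ ∀ b, -x b = ∑ l, u l * ν l b

end Vale.Agent.P277.HD
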