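import Vale.Agent.P277.HD.StK
import Vale.Agent.P277.HD.Conv
import Vale.Agent.P277.H762.G.Klt

/-!
# P277: `NegativePlaces`
-/

open scoped Manifold ContDiff Topology
open Vale.Agent.P272.K Vale.Agent.P285.H281.FD Set Metric Filter

noncomputable section

namespace Vale.Agent.P277.HD

theorem stKlt : StKlt := by
  intro Y _ _ _ _ _ χ hχ k s M hM hnef m hm hm0 ρ hρ hsum H _ _ _ _ _ _ ι sg hbd
    hdisj W X Z r v p P G hres hne f f' A L c hc n hn hflip a ha hb hklt hd1 hd2
  obtain ⟨t, ht⟩ := hn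
  have h := H762.G.stKlt Y χ hχ k s M hM hnef m hm hm0 ρ hρ hsum H ι sg (fun i => (hbd i).old)
    hdisj W X Z r v p P G hres.old hne f f' A L c hc n ⟨t, ht.old⟩ (fun j => (hflip j).old) a ha hb
    hklt hd1 hd2
  simp only [cor_old, hit_old]
  exact h

end Vale.Agent.P277.HD
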