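import Vale.Agent.P277.HD.StKW
import Vale.Agent.P277.HD.Conv
import Vale.Agent.P277.H29.W.Klt

/-!
# P277: `NegativePlaces`, with weak Zariski decompositions
-/

open scoped Manifold ContDiff Topology
open Vale.Agent.P272.K Vale.Agent.P285.H281.FD Set Metric Filter

noncomputable section

namespace Vale.Agent.P277.HD

theorem IsWZ.old {Y : Type} [TopologicalSpace Y] [ChartedSpace (Cm 4) Y] {X : CSp} {K : ℕ}
    {χ : Chart 4 Y → Cm 4 → Matrix (Fin 4) (Fin 4) ℂ} {v : Y → X.pt} {L : Fin K → Bd X.pt}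
    {c : Fin K → ℕ} {ρ : Fin K → ℝ} {E : Set Y} (h : IsWZ χ v L c ρ E) :
    T3.IsWZ χ v L c ρ E := by
  obtain ⟨q, N, I, τ, h1, h2, a, n, ν, u, h3, h4, h5⟩ := h
  refine ⟨q, N, I, τ, fun b => - ∑ l, u l * ν l b, fun b => (h1 b).1, fun b => neg_pos.2 (h5 b),
    fun b => (h1 b).2.1, fun b => (h1 b).2.2, h2, a, n, ν, u, fun l => ?_, h4, fun b => neg_neg _⟩
  obtain ⟨θ, g1, g2⟩ := h3 l
  exact ⟨θ, g1, fun y i _ => g2 i y⟩

theorem stKltW : StKltW := by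
  intro Y _ _ _ _ _ χ hχ k s M hM hnef m hm hm0 ρ hρ hsum H _ _ _ _ _ _ ι sg hbd
    hdisj W X Z r v p P G hres hne f f' A L c hc n hn hflip a ha hb hklt hd1 hd2
  obtain ⟨t, ht⟩ := hn
  have h := H29.W.stKltW Y χ hχ k s M hM hnef m hm hm0 ρ hρ hsum H ι sg (fun i => (hbd i).old)
    hdisj W X Z r v p P G hres.old hne f f' A L c hc n ⟨t, ht.old⟩ (fun j => (hflip j).old) a ha hb
    hklt hd1 hd2
  simp only [cor_old, hit_old]
  refine ⟨h.1, fun E hE ⟨⟨J, hJ⟩, hor⟩ => h.2.1 E hE.old ⟨⟨J, fun j hj => (hJ j hj).mono ?_⟩, hor⟩,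
    h.2.2⟩
  rintro x ⟨h1, l, -, h2⟩
  exact ⟨h1, l, h2⟩

end Vale.Agent.P277.HD
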