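import Vale.Agent.P277.HD.StKX
import Vale.Agent.P277.HD.Conv
import Vale.Agent.P277.H762.S.KltX

/-!
# P277: `NegativePlaces`
-/

open scoped Manifold ContDiff Topology
open Vale.Agent.P272.K Vale.Agent.P285.H281.FD Set Metric Filter

noncomputable section

namespace Vale.Agent.P277.HD

theorem IsWZ.toT3 {Y : Type} [TopologicalSpace Y] [ChartedSpace (Cm 4) Y] {X : CSp} {K : ℕ}
    {χ : Chart 4 Y → Cm 4 → Matrix (Fin 4) (Fin 4) ℂ} {v : Y → X.pt} {L : Fin K → Bd X.pt}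
    {c : Fin K → ℕ} {ρ : Fin K → ℝ} {E : Set Y} (h : IsWZ χ v L c ρ E) :
    T3.IsWZ χ v L c ρ E := h

theorem stKltX : StKltX := by
  intro Y _ _ _ _ _ χ hχ k s M hM hnef m hm hm0 ρ hsum H _ _ _ _ _ _ ι sg hbd
    hdisj W X Z r v p P G hres hne f f' A L c hc n hn hflip ε hε μ t ht hμ hτ R hR hR0 a ha hb
    hklt hd1 hd2
  obtain ⟨t', ht'⟩ := hn
  have hV := WS.stKltX Y χ hχ k s M hM hnef m hm hm0 ρ hsum H ι sg (fun i => (hbd i).old)
    hdisj W X Z r v p P G hres.old hne f f' A L c hc n ⟨t', ht'.old⟩ (fun j => (hflip j).old)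
    ε hε μ t ht hμ hτ R hR hR0 a ha hb hklt hd1 hd2
  simp only [cor_old, hit_old]
  exact ⟨hV.1, fun E hE => hV.2.1 E (hE.imp_right IsWZ.toT3), hV.2.2⟩

end Vale.Agent.P277.HD
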