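import Vale.Agent.P277.HD.StL
import Vale.Agent.P277.HD.Conv
import Vale.Agent.P277.H371.L.Lcy

/-!
# P277: `LogCalabiYau`
-/

open scoped Manifold ContDiff Topology
open Vale.Agent.P272.K Vale.Agent.P285.H281.FD Set Metric Filter

noncomputable section

namespace Vale.Agent.P277.HD

theorem hasRes_iff (X : CSp) : HasRes X ↔ T3.HasRes X := Iff.rfl

theorem stLCY : StLCY := by
  intro Y _ _ _ _ _ χ hχ k s M hM hnef m hm hm0 ρ σ hρ hσ hρσ hsum hsum' H _ _ _ _ _ _ ι sg hbd
    hdisj W X Z r v p P G hres hne f f' A L c hc n hn hflip a' a ha' ha K hK hb' hklt hd hno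
  obtain ⟨t, ht⟩ := hn
  refine H371.L.stLCY Y χ hχ k s M hM hnef m hm hm0 ρ σ hρ hσ hρσ hsum hsum' H ι sg
    (fun i => (hbd i).old) hdisj W X Z r v p P G hres.old hne f f' A L c hc n ⟨t, ht.old⟩
    (fun j t u h0 => (hflip j t u h0).old) a' a ha' ha K hK hb' hklt hd fun l hl hz => ?_
  refine hno l hl ?_
  rw [hit_old]
  exact hz

end Vale.Agent.P277.HD
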