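import Vale.Agent.P277.HD.Base

/-!
# P277: further definitions used by the statement of `NonpositiveFlips`
-/

open Vale.Agent.P285.H281.FD Set

noncomputable section

namespace Vale.Agent.P277.HD

/-- the union of the hypersurfaces `G l`, `l ∈ I`, and `H i`, `i ∈ I'` -/
def bad {Y : Type} {s r : ℕ} {H : Fin s → Type} (ι : ∀ i, H i → Y) (G : Fin r → Set Y)
    (I : Set (Fin r)) (I' : Set (Fin s)) : Set Y := (⋃ l ∈ I, G l) ∪ ⋃ i ∈ I', range (ι i)

/-- the points which are on two hypersurfaces `G l`, `l ∈ K`, or on a `G l`, `l ∈ K`, and an `H i` -/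
def cross {Y : Type} {s r : ℕ} {H : Fin s → Type} (ι : ∀ i, H i → Y) (G : Fin r → Set Y)
    (K : Set (Fin r)) : Set Y :=
  {y | ∃ l ∈ K, y ∈ G l ∧ ((∃ l' ∈ K, l' ≠ l ∧ y ∈ G l') ∨ ∃ i, y ∈ range (ι i))}

/-- `D = ∑ e, ρ e • D e ∼_ℝ F ≥ 0` with support `E`, where `L e` is the line bundle defined by
`c e • D e`: here `F = ∑ b, x b • F b`, `x b > 0`, and `F b` is the effective Cartier divisor of the
section `τ b` of the line bundle `N b`. The relation `D - F ∼_ℝ 0` means that `D - F` is a real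
combination of integral combinations of the `L e` and `N b` which are trivial line bundles. -/
def IsREff {K : ℕ} (X : CSp) (L : Fin K → Bd X.pt) (c : Fin K → ℕ) (ρ : Fin K → ℝ)
    (E : Set X.pt) : Prop :=
  ∃ (q : ℕ) (N : Fin q → Bd X.pt) (τ : ∀ b, (N b).ι → X.pt → ℂ) (x : Fin q → ℝ),
    (∀ b, IsLBx X (N b)) ∧ (∀ b, IsSecx X univ (N b) (τ b)) ∧ (∀ b, 0 < x b) ∧
    (∀ y, y ∈ E ↔ ∃ b i, y ∈ (N b).U i ∧ τ b i y = 0) ∧
    ∃ (a : ℕ) (n : Fin a → Fin K → ℤ) (ν : Fin a → Fin q → ℤ) (u : Fin a → ℝ),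
      (∀ l, IsTriv X ((Bd.lin L (n l)).mul (Bd.lin N (ν l)))) ∧
      (∀ e, ρ e = ∑ l, u l * (n l e * c e)) ∧ ∀ b, -x b = ∑ l, u l * ν l b

end Vale.Agent.P277.HD
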