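import Vale.Agent.P277.HD.Rs

/-!
# P277: further definitions used by the statement of `NonpositiveFlips`
-/

open Vale.Agent.P285.H281.FD Set

noncomputable section

namespace Vale.Agent.P277.HD

/-- the union of the hypersurfaces `G l`, `l ∈ I`, and `H i`, `i ∈ I'` -/
def bad {Y : Type} {s r : ℕ} {H : Fin s → Type} (ι : ∀ i, H i → Y) (G : Fin r → Set Y)
    (I : Set (Fin r)) (I' : Set (Fin s)) : Set Y := (⋃ l ∈ I, G l) ∪ ⋃ i ∈ I', range (ι i)

/-- the points which are on two hypersurfaces `G l`, `l ∈ K`, or on a `G l`, `l ∈ K`, and an `H i` -/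
def cross {Y : Type} {s r : ℕ} {H : Fin s → Type} (ι : ∀ i, H i → Y) (G : Fin r → Set Y)
    (K : Set (Fin r)) : Set Y :=
  {y | ∃ l ∈ K, y ∈ G l ∧ ((∃ l' ∈ K, l' ≠ l ∧ y ∈ G l') ∨ ∃ i, y ∈ range (ι i))}

end Vale.Agent.P277.HD
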