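import Vale.Agent.P277.HD.Nf
import Vale.Agent.P277.HD.Conv
import Vale.Agent.P277.H762.G.T7M

/-!
# P277: `NonpositiveFlips`
-/

open scoped Manifold ContDiff Topology
open Vale.Agent.P272.K Vale.Agent.P285.H281.FD Set

noncomputable section

namespace Vale.Agent.P277.HD

theorem stNf (Y : Type) [TopologicalSpace Y] [T2Space Y] [CompactSpace Y] [ChartedSpace (Cm 4) Y]
    [IsManifold 𝓘(ℂ, Cm 4) ω Y] (χ : Chart 4 Y → Cm 4 → Matrix (Fin 4) (Fin 4) ℂ)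
    (hχ : IsKahler χ) (k s : ℕ) (M : Fin (k + s) → Bd Y) (hM : ∀ e, IsLB 4 (M e))
    (hnef : ∀ e : Fin k, Nef χ (M (Fin.castAdd s e))) (m : Fin (k + s) → ℕ)
    (hm : ∀ e : Fin k, 1 ≤ m (Fin.castAdd s e)) (hm0 : ∀ i : Fin s, m (Fin.natAdd k i) = 0)
    (ρ σ : Fin (k + s) → ℝ) (hρ : ∀ e, 0 ≤ ρ e) (hσ : ∀ e, 0 ≤ σ e) (hρσ : ∀ e, 0 < ρ e + σ e)
    (hsum : ∑ e, ρ e * m e = 1) (hsum' : ∑ e, σ e * m e = 1) (H : Fin s → Type)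
    [∀ i, TopologicalSpace (H i)] [∀ i, T2Space (H i)] [∀ i, CompactSpace (H i)]
    [∀ i, ConnectedSpace (H i)] [∀ i, ChartedSpace (Cm 3) (H i)]
    [∀ i, IsManifold 𝓘(ℂ, Cm 3) ω (H i)] (ι : ∀ i, H i → Y)
    (sg : ∀ i : Fin s, (M (Fin.natAdd k i)).ι → Y → ℂ)
    (hbd : ∀ i, IsBd (ι i) (M (Fin.natAdd k i)) (sg i))
    (hdisj : Pairwise fun i j => Disjoint (range (ι i)) (range (ι j)))
    (W : CSp) (X Z : ℕ → CSp) (r : ℕ) (v : Y → W.pt) (p : W.pt → (X 0).pt) (P : Bd W.pt)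
    (G : Fin r → Set Y) (hG : IsRes v p P G) (hne : ∀ i, ¬ range (ι i) ⊆ ⋃ l, G l)
    (f : ∀ j, (X j).pt → (Z j).pt) (f' : ∀ j, (X (j + 1)).pt → (Z j).pt)
    (A : ∀ j, Set (Z j).pt) (L : ∀ j, Fin (k + s) → Bd (X j).pt) (c : ℕ → Fin (k + s) → ℕ)
    (hc : ∀ j e, 1 ≤ c j e) (n : Fin (k + s) → Fin r → ℤ)
    (hL : ∃ t, IsCmpV (fun y => p (v y)) (L 0)
      (fun e => (((Bd.can 4 Y).pow (m e)).mul (M e)).pow (c 0 e)) G n t)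
    (hflip : ∀ j, ∀ t : ℝ, 0 < t → t ≤ 1 → IsFlipR (X j) (Z j) (X (j + 1)) (f j) (f' j) (A j)
      (L j) (L (j + 1)) (c j) (c (j + 1)) fun e => t * ρ e + (1 - t) * σ e)
    (a : Fin r → ℝ ×ₗ ℝ)
    (ha : ∀ l, a l = toLex (∑ e, σ e * n e l / c 0 e, ∑ e, ρ e * n e l / c 0 e))
    (b : Fin s → ℝ ×ₗ ℝ) (hb : ∀ i, b i = toLex (σ (Fin.natAdd k i), ρ (Fin.natAdd k i))) :
    (∀ N : ∀ j, Set (X j).pt,
      (∀ y ∈ bad ι G {l | a l < 0 ∧ (a l ≤ -1 ∨ ZD (fun y => p (v y)) (hit f f') (G l))}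
        {i | 1 ≤ b i} ∪ cross ι G {l | -1 < a l ∧ a l < 0}, p (v y) ∈ hit f f' → p (v y) ∈ N 0) →
      (∀ j, ∀ x ∈ N j, ∀ x', f' j x' = f j x → x' ∈ N (j + 1)) →
      ∃ j, ¬ DimLe (X (j + 1)) 1 {x | x ∈ N (j + 1) ∧ f' j x ∈ Amin (f j)}) ∧
    ∀ E₀ : Set (X 0).pt, IsREff (X 0) (L 0) (c 0) ρ E₀ → hit f f' ⊆ E₀ := by
  obtain ⟨t, ht⟩ := hL
  have h := (H762.G.stT7B Y χ hχ k s M hM hnef m hm hm0 ρ σ hρ hσ hρσ hsum hsum' H ι sg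
    (fun i => (hbd i).old) hdisj W X Z r v p P G hG.old hne f f' A L c hc n ⟨t, ht.old⟩
    (fun j t h0 h1 => (hflip j t h0 h1).old) a ha b hb).2
  simp only [hit_old]
  exact h

end Vale.Agent.P277.HD
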