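import Vale.Agent.P277.HD.Rs

/-!
# P277: real combinations of line bundles which are trivial
-/

open Vale.Agent.P272.K Vale.Agent.P285.H281.FD Set

noncomputable section

namespace Vale.Agent.P277.HD

/-- `∑ e, σ e • D e ∼_ℝ 0`, where `L e` is the line bundle defined by `c e • D e`: the divisor is a
real combination of integral combinations whose line bundles are trivial. -/
def IsRTriv {K : ℕ} (X : CSp) (L : Fin K → Bd X.pt) (c : Fin K → ℕ) (σ : Fin K → ℝ) : Prop :=
  ∃ (b : ℕ) (n : Fin b → Fin K → ℤ) (x : Fin b → ℝ), (∀ a, IsTriv X (Bd.lin L (n a))) ∧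
    ∀ e, σ e = ∑ a, x a * (n a e * c e)

end Vale.Agent.P277.HD
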