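import Vale.Agent.P277.HD.Base

/-!
# P277: spaces with a resolution
-/

open scoped Manifold ContDiff Topology
open Vale.Agent.P272.K Vale.Agent.P285.H281.FD Set

noncomputable section

namespace Vale.Agent.P277.HD

/-- The compact complex space `X` has a resolution. -/
def HasRes (X : CSp) : Prop :=
  ∃ (Y : Type) (_ : TopologicalSpace Y) (_ : T2Space Y) (_ : CompactSpace Y)
    (_ : ChartedSpace (Cm 4) Y) (_ : IsManifold 𝓘(ℂ, Cm 4) ω Y) (v : Y → X.pt) (O : Set Y),
    Continuous v ∧ (∀ y, ∀ e : Chart 4 Y, At e y → ∀ g : X.pt → ℂ, X.Hol g (v y) →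
      AnalyticAt ℂ (fun z => g (v (e.symm z))) (e y)) ∧ IsOpenEmb X O v ∧ DimLe X 2 (v '' O)ᶜ

end Vale.Agent.P277.HD
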