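import Vale.Agent.P277.HD.Base

/-!
# P277: values of correspondences
-/

open scoped Topology

noncomputable section

namespace Vale.Agent.P277.HD

/-- the values `x ∈ X` of the correspondence `Cr` at the points `y ∈ B` where it is continuous -/
def Val {Y : Type} [TopologicalSpace Y] {X : CSp} (Cr : Y → X.pt → Prop) (B : Set Y) :
    Set X.pt :=
  {x | ∃ y ∈ B, ∀ U ∈ 𝓝 x, ∀ᶠ y' in 𝓝 y, ∀ x', Cr y' x' → x' ∈ U}

end Vale.Agent.P277.HD
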