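import Vale.Agent.P277.Defs
import Mathlib.MeasureTheory.Measure.Lebesgue.EqHaar

/-!
# P277: definitions for the bound of the number of flips by the number of flipped surfaces
-/

open scoped Manifold ContDiff Topology
open Vale.Agent.P272.K Vale.Agent.P285.H281.FD Set Filter

noncomputable section

namespace Vale.Agent.P277.HD

/-- `v : W → X ∖ τ` is a proper modification: `W` is an open subset of the manifold `Y`, `τ ⊆ X` is
closed of dimension `≤ 1`, `v` is proper and holomorphic, and it identifies `O ⊆ W`, whose complement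
has measure zero, with the complement of a closed set of dimension `≤ 2`. -/
structure IsMod {Y : Type} [TopologicalSpace Y] [ChartedSpace (Cm 4) Y] (X : CSp) (W O : Set Y)
    (v : Y → X.pt) (τ : Set X.pt) : Prop where
  isOpen : IsOpen W
  cont : ContinuousOn v W
  hol : ∀ y ∈ W, ∀ e : Chart 4 Y, At e y → ∀ g : X.pt → ℂ, X.Hol g (v y) →
    AnalyticAt ℂ (fun z => g (v (e.symm z))) (e y)
  closed : IsClosed τ
  dim : DimLe X 1 τ
  maps : ∀ y ∈ W, v y ∉ τ
  proper : ∀ C, IsClosed C → Disjoint C τ → IsCompact (W ∩ v ⁻¹' C)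
  sub : O ⊆ W
  emb : IsOpenEmb X O v
  codim : DimLe X 2 (v '' O)ᶜ
  null : ∀ e ∈ atlas (Cm 4) Y, MeasureTheory.volume (e '' (W \ O ∩ e.source)) = 0

/-- `S ⊆ X` is near `x` a complex manifold of dimension two. -/
def IsSurf (X : CSp) (S : Set X.pt) (x : X.pt) : Prop :=
  ∃ (Ω : Set (Cm 2)) (g : Cm 2 → X.pt) (u : X.pt → Cm 2), IsOpen Ω ∧ (∀ p ∈ Ω, HolAt X g p) ∧
    x ∈ g '' Ω ∧ (∀ i, ∀ᶠ y in 𝓝 x, X.Hol (fun y => u y i) y) ∧ (∀ p ∈ Ω, u (g p) = p) ∧
    ∀ᶠ y in 𝓝 x, y ∈ S ↔ (u y ∈ Ω ∧ g (u y) = y)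

/-- the points where `f` is not injective -/
def Exc {X Z : CSp} (f : X.pt → Z.pt) : Set X.pt := {x | ∃ x', f x' = f x ∧ x' ≠ x}

/-- `S` contains at most `k` surfaces, and `X` is regular at their general points: the set of the
regular points of `X` where `S` is a surface has at most `k` connected components. -/
def NumSurf (X : CSp) (S : Set X.pt) (k : ℕ) : Prop :=
  DimLe X 1 {x | x ∈ S ∧ ¬ IsReg 4 X x} ∧ ∃ c : Fin k → X.pt, ∀ x ∈ S, IsReg 4 X x → IsSurf X S x →
    ∃ i, x ∈ connectedComponentIn {y | y ∈ S ∧ IsReg 4 X y ∧ IsSurf X S y} (c i)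

end Vale.Agent.P277.HD
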